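import Vale.Agent.P328.H659.Main

namespace Vale.Agent.Results.P328.DiaconisGangolli

open Vale.Agent.P328.RM Vale.Agent.P328.SM Vale.Agent.P328.H659

/-- (1) Contingency tables with arbitrary margins can be sampled almost uniformly in polynomial
time, their number can be approximated in randomized polynomial time, and the `2 × 2` heat-bath
chain mixes rapidly for all margins.  (2) For all margins the `±1` chain of Diaconis and Gangolli
has spectral gap at least `4 (1 - cos (π / (D + 1))) / (m² n²)`, where `D` is the largest row sum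
or the largest column sum, and it mixes in a time polynomial in `m`, `n` and `D`.  (3) This gap is
attained for all `m, n ≥ 2` and all `D ≥ 1`. -/
theorem result :
    ((((∃ (f : List Bool → List Bool) (q : Polynomial ℕ), IsSampler f q) ∧
      (∃ (f : List Bool → List Bool) (q : Polynomial ℕ), IsFPRAS f q)) ∧
      ∀ (m n : ℕ) (r : Fin m → ℕ) (c : Fin n → ℕ),
        (∀ k : ℕ, (inputWord r c k).length ≤ 8 * (inputSize r c + 1) + k) ∧
        ∀ e d : ℕ, (countWord r c e d).length ≤ 8 * (inputSize r c + 1) + 2 * e + d) ∧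
    ∀ (m n : ℕ) (r : Fin m → ℕ) (c : Fin n → ℕ), 2 ≤ m → 2 ≤ n →
      ((∀ X Y, 0 ≤ step r c X Y ∧ step r c X Y = step r c Y X) ∧ ∀ X, ∑ Y, step r c X Y = 1) ∧
      SecondEigLe (step r c) (1 - 4 / ((m : ℝ) ^ 2 * (n : ℝ) ^ 2)) ∧
      ∀ (X : Omega r c) (ε : ℝ), 0 < ε → ∀ t : ℕ,
        (m : ℝ) ^ 2 * (n : ℝ) ^ 2 / 4 *
          ((m : ℝ) * n / 2 * Real.log ((∑ i, r i : ℕ) + 1) + Real.log (1 / ε)) ≤ t →
        tv ((step r c ^ t) X) (fun _ => 1 / (Fintype.card (Omega r c) : ℝ)) ≤ ε) ∧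
    (∀ (m n D : ℕ) (r : Fin m → ℕ) (c : Fin n → ℕ), 2 ≤ m → 2 ≤ n →
      ((∀ i, r i ≤ D) ∨ ∀ j, c j ≤ D) →
      ((∀ X Y, 0 ≤ dgStep r c X Y ∧ dgStep r c X Y = dgStep r c Y X) ∧
        ∀ X, ∑ Y, dgStep r c X Y = 1) ∧
      (∀ F : Omega r c → ℝ, ∑ X, F X = 0 →
        ∑ X, ∑ Y, F X * dgStep r c X Y * F Y ≤ (1 - dgGap m n D) * ∑ X, F X ^ 2) ∧
      SecondEigLe (lazyStep r c) (1 - dgGap m n D / 2) ∧
      ∀ (X : Omega r c) (ε : ℝ), 0 < ε → ∀ t : ℕ,
        (m : ℝ) ^ 2 * (n : ℝ) ^ 2 * ((D : ℝ) + 1) ^ 2 / 4 *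
          ((m : ℝ) * n / 2 * Real.log ((∑ i, r i : ℕ) + 1) + Real.log (1 / ε)) ≤ t →
        tv ((lazyStep r c ^ t) X) (fun _ => 1 / (Fintype.card (Omega r c) : ℝ)) ≤ ε) ∧
    ∀ m n D : ℕ, 2 ≤ m → 2 ≤ n → 1 ≤ D →
      ∃ F : Omega (fun i : Fin m => if (i : ℕ) < 2 then D else 0)
          (fun j : Fin n => if (j : ℕ) < 2 then D else 0) → ℝ,
        F ≠ 0 ∧ ∑ X, F X = 0 ∧
          ∀ X, ∑ Y, dgStep _ _ X Y * F Y = (1 - dgGap m n D) * F X :=
  ⟨⟨⟨⟨exists_sampler, exists_fpras⟩, fun _ _ r c =>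
    ⟨fun k => length_inputWord r c k, fun e d => length_countWord r c e d⟩⟩,
    fun _ _ r c hm hn => all_parts r c hm hn⟩,
    fun _ _ D r c hm hn hD => ⟨kernel_part r c hm hn, fun F hF => gap_part r c D hm hn hD F hF,
      lazy_part r c D hm hn hD, fun X ε hε t ht => mix_part r c D hm hn hD X ε hε t ht⟩,
    fun m n D hm hn hD => sharp_part m n D hm hn hD⟩

end Vale.Agent.Results.P328.DiaconisGangolli
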