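import Vale.Agent.P328.H350.Chain

namespace Vale.Agent.Results.P328.MixedTables

open Vale.Agent.P328.RM Vale.Agent.P328.SM Vale.Agent.P328.H350

/-- (1) Contingency tables with arbitrary margins can be sampled almost uniformly in polynomial
time, their number can be approximated in randomized polynomial time, and the `2 × 2` heat-bath
chain mixes rapidly for all margins.  (2) The `2 × 2` heat-bath chain mixes rapidly for all margins
also on the tables in which an arbitrary set `B` of rows is restricted to entries `0` and `1`; when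
`B` is the set of all rows, this is the switch chain on bipartite graphs with given degrees. -/
theorem result :
    ((((∃ (f : List Bool → List Bool) (q : Polynomial ℕ), IsSampler f q) ∧
      (∃ (f : List Bool → List Bool) (q : Polynomial ℕ), IsFPRAS f q)) ∧
      ∀ (m n : ℕ) (r : Fin m → ℕ) (c : Fin n → ℕ),
        (∀ k : ℕ, (inputWord r c k).length ≤ 8 * (inputSize r c + 1) + k) ∧
        ∀ e d : ℕ, (countWord r c e d).length ≤ 8 * (inputSize r c + 1) + 2 * e + d) ∧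
    ∀ (m n : ℕ) (r : Fin m → ℕ) (c : Fin n → ℕ), 2 ≤ m → 2 ≤ n →
      ((∀ X Y, 0 ≤ step r c X Y ∧ step r c X Y = step r c Y X) ∧ ∀ X, ∑ Y, step r c X Y = 1) ∧
      SecondEigLe (step r c) (1 - 4 / ((m : ℝ) ^ 2 * (n : ℝ) ^ 2)) ∧
      ∀ (X : Omega r c) (ε : ℝ), 0 < ε → ∀ t : ℕ,
        (m : ℝ) ^ 2 * (n : ℝ) ^ 2 / 4 *
          ((m : ℝ) * n / 2 * Real.log ((∑ i, r i : ℕ) + 1) + Real.log (1 / ε)) ≤ t →
        tv ((step r c ^ t) X) (fun _ => 1 / (Fintype.card (Omega r c) : ℝ)) ≤ ε) ∧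
    ∀ (m n : ℕ) (B : Finset (Fin m)) (r : Fin m → ℕ) (c : Fin n → ℕ), 2 ≤ m → 2 ≤ n →
      ((∀ X Y, 0 ≤ stepB B r c X Y ∧ stepB B r c X Y = stepB B r c Y X) ∧
        ∀ X, ∑ Y, stepB B r c X Y = 1) ∧
      SecondEigLe (stepB B r c) (1 - 4 / ((m : ℝ) ^ 2 * (n : ℝ) ^ 2)) ∧
      ∀ (X : OmegaB B r c) (ε : ℝ), 0 < ε → ∀ t : ℕ,
        (m : ℝ) ^ 2 * (n : ℝ) ^ 2 / 4 *
          (Real.log (Fintype.card (OmegaB B r c)) / 2 + Real.log (1 / ε)) ≤ t →
        tv ((stepB B r c ^ t) X) (fun _ => 1 / (Fintype.card (OmegaB B r c) : ℝ)) ≤ ε :=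
  ⟨⟨⟨⟨exists_sampler, exists_fpras⟩, fun _ _ r c =>
    ⟨fun k => length_inputWord r c k, fun e d => length_countWord r c e d⟩⟩,
    fun _ _ r c hm hn => all_parts r c hm hn⟩,
    fun _ _ B r c hm hn => all_partsB B r c hm hn⟩

end Vale.Agent.Results.P328.MixedTables
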